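import Vale.Agent.P040.H198.Targets
import Mathlib.LinearAlgebra.Lagrange

/-!
# T2: the spine
-/

namespace Vale.Agent.P040.Topo

open Polynomial Set

/-- the skew graph homeomorphism -/
noncomputable def skew (α : ℝ) (g : ℝ[X]) : Plane ≃ₜ Plane where
  toFun w := (w.1 + α * w.2, w.2 - g.eval (w.1 + α * w.2))
  invFun w := (w.1 - α * (w.2 + g.eval w.1), w.2 + g.eval w.1)
  left_inv w := by
    ext
    · simp only; ring
    · simp only; ring
  right_inv w := by
    have h : w.1 - α * (w.2 + g.eval w.1) + α * (w.2 + g.eval w.1) = w.1 := by ring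
    ext
    · simp only; ring
    · simp only [h]; ring
  continuous_toFun := by
    have h : Continuous fun w : Plane => w.1 + α * w.2 := by fun_prop
    exact h.prodMk (continuous_snd.sub (g.continuous.comp h))
  continuous_invFun := by
    have h : Continuous fun w : Plane => w.2 + g.eval w.1 :=
      continuous_snd.add (g.continuous.comp continuous_fst)
    exact (continuous_fst.sub (continuous_const.mul h)).prodMk h

theorem exists_slope {V : Set Plane} (hV : V.Finite) :
    ∃ α : ℝ, InjOn (fun w : Plane => w.1 + α * w.2) V := by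
  have hbad : (⋃ v ∈ V, ⋃ v' ∈ V, {α : ℝ | v ≠ v' ∧ v.1 + α * v.2 = v'.1 + α * v'.2}).Finite := by
    refine hV.biUnion fun v _ => hV.biUnion fun v' _ => ?_
    refine Set.Subsingleton.finite ?_
    rintro a ⟨hne, ha⟩ b ⟨-, hb⟩
    have h2 : v.2 ≠ v'.2 := by
      intro h
      apply hne
      rw [h] at ha
      exact Prod.ext (by linarith) h
    have h3 : (a - b) * (v.2 - v'.2) = 0 := by linear_combination ha - hb
    rcases mul_eq_zero.1 h3 with h | h
    · linarith
    · exact absurd (sub_eq_zero.1 h) h2
  obtain ⟨α, hα⟩ := hbad.infinite_compl.nonempty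
  refine ⟨α, fun v hv v' hv' h => ?_⟩
  by_contra hne
  apply hα
  simp only [mem_iUnion]
  exact ⟨v, hv, v', hv', hne, h⟩

theorem spine : SpineStatement := by
  classical
  intro V C F hV hVn hC hd
  obtain ⟨α, hα⟩ := exists_slope hV
  set X : Plane → ℝ := fun w => w.1 + α * w.2 with hX
  set Vs : Finset Plane := hV.toFinset with hVs
  have hVsmem : ∀ v, v ∈ Vs ↔ v ∈ V := fun v => hV.mem_toFinset
  have hinj : Set.InjOn X Vs := fun v hv v' hv' h => hα ((hVsmem v).1 hv) ((hVsmem v').1 hv') h
  set L : ℝ[X] := Lagrange.interpolate Vs X Prod.snd with hL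
  set N : ℝ[X] := Lagrange.nodal Vs X with hN
  have hcard : 2 ≤ Vs.card := by
    obtain ⟨a, ha, b, hb, hab⟩ := hVn
    exact Finset.one_lt_card.2 ⟨a, (hVsmem a).2 ha, b, (hVsmem b).2 hb, hab⟩
  have hLv : ∀ v ∈ V, L.eval (X v) = v.2 := fun v hv =>
    Lagrange.eval_interpolate_at_node _ hinj ((hVsmem v).2 hv)
  have hNv : ∀ v ∈ V, N.eval (X v) = 0 := fun v hv =>
    Lagrange.eval_nodal_at_node ((hVsmem v).2 hv)
  have hNdeg : N.natDegree = Vs.card := Lagrange.natDegree_nodal
  have hLdeg : L.degree < Vs.card := Lagrange.degree_interpolate_lt _ hinj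
  -- the parameter
  have hbad : ({0} ∪ ⋃ c ∈ C, {s : ℝ | c.2 = L.eval (X c) + s * N.eval (X c)}).Finite := by
    refine (finite_singleton _).union (hC.biUnion fun c hc => ?_)
    refine Set.Subsingleton.finite ?_
    intro a ha b hb
    have ha' : c.2 = L.eval (X c) + a * N.eval (X c) := ha
    have hb' : c.2 = L.eval (X c) + b * N.eval (X c) := hb
    have h3 : (a - b) * N.eval (X c) = 0 := by linear_combination hb' - ha'
    rcases mul_eq_zero.1 h3 with h | h
    · linarith
    · exfalso
      rw [hN, Lagrange.eval_nodal, Finset.prod_eq_zero_iff] at h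
      obtain ⟨v, hv, hv'⟩ := h
      have hvX : X c = X v := by linarith
      have hNc : N.eval (X c) = 0 := by rw [hvX]; exact hNv v ((hVsmem v).1 hv)
      rw [hNc, mul_zero, add_zero, hvX, hLv v ((hVsmem v).1 hv)] at ha'
      have hcv : c = v := by
        have h4 : c.1 + α * c.2 = v.1 + α * v.2 := hvX
        refine Prod.ext ?_ ha'
        rw [ha'] at h4
        linarith
      rw [hcv] at hc
      exact Set.disjoint_left.1 hd ((hVsmem v).1 hv) hc
  obtain ⟨s, hs⟩ := hbad.infinite_compl.nonempty
  have hs0 : s ≠ 0 := fun h => hs (Or.inl h)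
  have hsc : ∀ c ∈ C, c.2 ≠ L.eval (X c) + s * N.eval (X c) := by
    intro c hc h
    apply hs
    right
    simp only [mem_iUnion]
    exact ⟨c, hc, h⟩
  set g : ℝ[X] := L + Polynomial.C s * N with hg
  have hgdeg : g.natDegree = Vs.card := by
    have h1 : (Polynomial.C s * N).degree = Vs.card := by
      rw [Polynomial.degree_C_mul hs0, hN, Lagrange.degree_nodal]
    rw [hg, Polynomial.natDegree_add_eq_right_of_degree_lt (by rw [h1]; exact hLdeg),
      Polynomial.natDegree_C_mul hs0, hNdeg]
  refine ⟨skew α g, ?_, ?_, ?_⟩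
  · intro v hv
    show v.2 - g.eval (X v) = 0
    rw [hg, eval_add, eval_mul, eval_C, hLv v hv, hNv v hv]
    ring
  · intro c hc h
    have h' : c.2 - g.eval (X c) = 0 := h
    rw [hg, eval_add, eval_mul, eval_C] at h'
    exact hsc c hc (by linarith)
  · rintro ⟨p, q⟩ -
    by_cases hpq : p = q
    · refine (finite_singleton p).subset ?_
      rintro w ⟨hw, -⟩
      simp only [hpq, segment_same] at hw
      rw [hpq]
      exact hw
    set P : ℝ[X] := Polynomial.C p.2 + Polynomial.C (q.2 - p.2) * Polynomial.X -
      g.comp (Polynomial.C (X p) + Polynomial.C (X q - X p) * Polynomial.X) with hP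
    have hP0 : P ≠ 0 := by
      intro h0
      by_cases hXX : X q - X p = 0
      · have h2 : q.2 - p.2 ≠ 0 := by
          intro h
          apply hpq
          have h3 : q.1 + α * q.2 - (p.1 + α * p.2) = 0 := hXX
          have h4 : q.2 = p.2 := by linarith
          refine Prod.ext ?_ h4.symm
          rw [h4] at h3
          linarith
        have h3 := congrArg (fun P => Polynomial.coeff P 1) h0
        simp only [hP, hXX, map_zero, zero_mul, add_zero, Polynomial.comp_C,
          Polynomial.coeff_sub, Polynomial.coeff_add, Polynomial.coeff_C_succ,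
          Polynomial.coeff_C_mul, Polynomial.coeff_X_one, Polynomial.coeff_zero, mul_one,
          zero_add, sub_zero] at h3
        exact h2 h3
      · have h1 : (Polynomial.C (X p) + Polynomial.C (X q - X p) * Polynomial.X).natDegree = 1 := by
          rw [add_comm]
          exact Polynomial.natDegree_linear hXX
        have h2 : (g.comp (Polynomial.C (X p) + Polynomial.C (X q - X p) * Polynomial.X)).natDegree
            = Vs.card := by
          rw [Polynomial.natDegree_comp, h1, mul_one, hgdeg]
        have h3 : g.comp (Polynomial.C (X p) + Polynomial.C (X q - X p) * Polynomial.X) =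
            Polynomial.C p.2 + Polynomial.C (q.2 - p.2) * Polynomial.X := (sub_eq_zero.1 h0).symm
        rw [h3, add_comm] at h2
        have h4 := Polynomial.natDegree_linear_le (a := q.2 - p.2) (b := p.2)
        omega
    refine ((P.roots.toFinset.finite_toSet).image (fun t : ℝ => p + t • (q - p))).subset ?_
    rintro w ⟨hw, hw2⟩
    rw [segment_eq_image'] at hw
    obtain ⟨t, -, rfl⟩ := hw
    refine ⟨t, ?_, rfl⟩
    rw [Finset.mem_coe, Multiset.mem_toFinset, Polynomial.mem_roots hP0, Polynomial.IsRoot, hP]
    have h1 : (p + t • (q - p)).2 - g.eval (X (p + t • (q - p))) = 0 := hw2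
    have h2 : X (p + t • (q - p)) = X p + (X q - X p) * t := by
      simp only [hX, Prod.fst_add, Prod.snd_add, Prod.smul_fst, Prod.smul_snd, Prod.fst_sub,
        Prod.snd_sub, smul_eq_mul]
      ring
    have h3 : (p + t • (q - p)).2 = p.2 + (q.2 - p.2) * t := by
      simp only [Prod.snd_add, Prod.smul_snd, Prod.snd_sub, smul_eq_mul]
      ring
    rw [h2, h3] at h1
    simp only [eval_sub, eval_add, eval_mul, eval_C, eval_X, eval_comp]
    exact h1

end Vale.Agent.P040.Topo
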